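import Mathlib

namespace Vale.Agent.P314

/-- Noncommutative formulas over `F` in the variables `x_i`, `i : Fin n`. -/
inductive Formula (F : Type) (n : ℕ) : Type
  | var (i : Fin n) : Formula F n
  | const (a : F) : Formula F n
  | add (f g : Formula F n) : Formula F n
  | mul (f g : Formula F n) : Formula F n

/-- The number of vertices of the tree, leaves included. -/
def Formula.size {F : Type} {n : ℕ} : Formula F n → ℕ
  | Formula.var _ => 1
  | Formula.const _ => 1
  | Formula.add f g => f.size + g.size + 1
  | Formula.mul f g => f.size + g.size + 1

/-- The noncommutative polynomial computed by a formula. -/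
noncomputable def Formula.poly {F : Type} [Field F] {n : ℕ} : Formula F n → FreeAlgebra F (Fin n)
  | Formula.var i => FreeAlgebra.ι F i
  | Formula.const a => algebraMap F (FreeAlgebra F (Fin n)) a
  | Formula.add f g => f.poly + g.poly
  | Formula.mul f g => f.poly * g.poly

/-- A dimension `d` and an `n`-tuple of `d × d` matrices. -/
abbrev Tuple (F : Type) (n : ℕ) : Type := Σ d : ℕ, Fin n → Matrix (Fin d) (Fin d) F

/-- Every nonzero polynomial computed by a formula of size at most `s` is nonzero at some tuple
of the list. -/
def IsHittingSet {F : Type} [Field F] (n s : ℕ) (H : List (Tuple F n)) : Prop :=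
  ∀ φ : Formula F n, φ.size ≤ s → φ.poly ≠ 0 → ∃ T ∈ H, FreeAlgebra.lift F T.2 φ.poly ≠ 0

/-- The input `(n, s)` in unary: `n` ones, then `s` zeros. -/
def encInput (x : ℕ × ℕ) : List (Option Bool) :=
  List.replicate x.1 (some true) ++ List.replicate x.2 (some false)

/-- A tuple is written as its dimension in unary, a separator, and then all entries of all
matrices, row by row, each in the binary encoding `enc` followed by a separator. -/
def encTuple {F : Type} (enc : F → List Bool) {n : ℕ} (T : Tuple F n) : List (Option Bool) :=
  List.replicate T.1 (some true) ++ none ::
    (List.finRange n).flatMap fun i => (List.finRange T.1).flatMap fun a =>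
      (List.finRange T.1).flatMap fun b => (enc (T.2 i a b)).map some ++ [none]

/-- A list of tuples is written as the concatenation of the codes of its members. -/
def encOutput {F : Type} (enc : F → List Bool) (x : Σ n : ℕ, List (Tuple F n)) :
    List (Option Bool) :=
  x.2.flatMap (encTuple enc)

end Vale.Agent.P314
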