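import Vale.Agent.P314.Indep

/-! The multiplicity estimate. -/

namespace Vale.Agent.P314

open Finset PowerSeries

variable {K : Type} [Field K] {n : ℕ}

theorem coeff_mul_low {A B : K⟦X⟧} {m e : ℕ} (hA : ∀ k < m, coeff k A = 0)
    (hB : ∀ k < e, coeff k B = 0) : coeff (m + e) (A * B) = coeff m A * coeff e B := by
  obtain ⟨A', rfl⟩ := X_pow_dvd_iff.2 hA
  obtain ⟨B', rfl⟩ := X_pow_dvd_iff.2 hB
  have e1 : X ^ m * A' * (X ^ e * B') = X ^ (m + e) * (A' * B') := by ring
  rw [e1]
  simp [coeff_X_pow_mul']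

theorem casoratian {q : K} (hq : q ≠ 0) (hq1 : ∀ j, j ≠ 0 → q ^ j ≠ 1) {V : Type}
    [AddCommGroup V] [Module K V] [FiniteDimensional K V] (Φ : V →ₗ[K] K⟦X⟧)
    (hΦ : ∀ g, Φ g = 0 → g = 0) {r : ℕ} (U : Fin r → K⟦X⟧) (hU : U ≠ 0)
    (h : ∀ g, ∑ t, U t * rescale (q ^ t.val) (Φ g) = 0) : Module.finrank K V < r := by
  classical
  have hex : ∃ m, ∃ t, coeff m (U t) ≠ 0 := by
    by_contra hc
    push Not at hc
    exact hU (funext fun t => PowerSeries.ext fun m => by simpa using hc m t)
  let m := Nat.find hex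
  have hm : ∀ t, ∀ k < m, coeff k (U t) = 0 := fun t k hk => by
    have := Nat.find_min hex hk
    push Not at this
    exact this t
  obtain ⟨t0, ht0⟩ : ∃ t, coeff m (U t) ≠ 0 := Nat.find_spec hex
  let P : Polynomial K := ∑ t : Fin r, Polynomial.C (coeff m (U t)) * Polynomial.X ^ t.val
  have hP0 : P ≠ 0 := by
    intro h0
    have := congrArg (fun p => p.coeff t0.val) h0
    simp only [P, Polynomial.finset_sum_coeff, Polynomial.coeff_C_mul, Polynomial.coeff_X_pow,
      Fin.val_inj, mul_ite, mul_one, mul_zero, sum_ite_eq, mem_univ, if_true,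
      Polynomial.coeff_zero] at this
    exact ht0 this
  have hr : 0 < r := Fin.pos t0
  have hPd : P.natDegree ≤ r - 1 := Polynomial.natDegree_sum_le_of_forall_le _ _ fun t _ =>
    (Polynomial.natDegree_C_mul_X_pow_le _ _).trans (by have := t.2; omega)
  let T := P.roots.toFinset
  let ex : K → ℕ := fun x => if h : ∃ e : ℕ, q ^ e = x then h.choose else 0
  let L : V →ₗ[K] (T → K) := LinearMap.pi fun x => (coeff (ex x.1)).comp Φ
  have hL : Function.Injective L := by
    rw [injective_iff_map_eq_zero]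
    intro g hg
    apply hΦ
    by_contra h0
    have hex2 : ∃ e, coeff e (Φ g) ≠ 0 := by
      by_contra hc
      push Not at hc
      exact h0 (PowerSeries.ext fun m => by simpa using hc m)
    let e := Nat.find hex2
    have he : coeff e (Φ g) ≠ 0 := Nat.find_spec hex2
    have he' : ∀ k < e, coeff k (Φ g) = 0 := fun k hk => by
      simpa using Nat.find_min hex2 hk
    have h1 := congrArg (coeff (m + e)) (h g)
    rw [map_sum, map_zero, sum_congr rfl fun t _ => coeff_mul_low (hm t)
      (fun k hk => by rw [coeff_rescale, he' k hk, mul_zero])] at h1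
    have h2 : P.eval (q ^ e) * coeff e (Φ g) = 0 := by
      rw [← h1]
      simp only [P, Polynomial.eval_finset_sum, Polynomial.eval_mul, Polynomial.eval_C,
        Polynomial.eval_pow, Polynomial.eval_X, sum_mul, coeff_rescale]
      refine sum_congr rfl fun t _ => ?_
      rw [← pow_mul, ← pow_mul, mul_comm e]; ring
    rw [mul_eq_zero, or_iff_left he] at h2
    have hT : q ^ e ∈ T := by
      simp only [T, Multiset.mem_toFinset]
      exact (Polynomial.mem_roots hP0).2 h2
    have h3 := congrFun hg ⟨_, hT⟩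
    have h4 : ex (q ^ e) = e := by
      have hh : ∃ e' : ℕ, q ^ e' = q ^ e := ⟨e, rfl⟩
      simp only [ex, dif_pos hh]
      exact pow_injective' hq hq1 hh.choose_spec
    simp only [L, LinearMap.pi_apply, h4, LinearMap.comp_apply, Pi.zero_apply] at h3
    exact he h3
  have h5 := LinearMap.finrank_le_finrank_of_injective hL
  rw [Module.finrank_fintype_fun_eq_card, Fintype.card_coe] at h5
  have h6 : T.card ≤ P.natDegree := (Multiset.toFinset_card_le _).trans (Polynomial.card_roots' P)
  omega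

theorem natDegree_det_le {r D : ℕ} (M : Matrix (Fin r) (Fin r) (Polynomial K))
    (h : ∀ i j, (M i j).natDegree ≤ D) : M.det.natDegree ≤ r * D := by
  rw [Matrix.det_apply]
  refine Polynomial.natDegree_sum_le_of_forall_le _ _ fun σ _ => ?_
  refine (Polynomial.natDegree_smul_le _ _).trans ((Polynomial.natDegree_prod_le _ _).trans ?_)
  exact (sum_le_card_nsmul _ _ D fun i _ => h _ _).trans (by simp)

/-- Abstract form of the multiplicity estimate. -/
theorem mult_abstract {q : K} (hq : q ≠ 0) (hq1 : ∀ j, j ≠ 0 → q ^ j ≠ 1) {V : Type}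
    [AddCommGroup V] [Module K V] [FiniteDimensional K V] (Φ : V →ₗ[K] K⟦X⟧)
    (hΦ : ∀ g, Φ g = 0 → g = 0) {r : ℕ} (hr : Module.finrank K V = r)
    (y : V → Fin r → K⟦X⟧) (ω : Polynomial K) (hω : ω.coeff 0 = 1) (D : ℕ)
    (B : Matrix (Fin r) (Fin r) (Polynomial K)) (hB : ∀ k m, (B k m).natDegree ≤ D)
    (hy : ∀ g k, (ω : K⟦X⟧) * rescale q (y g k) = ∑ m, (B k m : K⟦X⟧) * y g m)
    (lam : Fin r → K) (hlam : ∀ g, Φ g = ∑ k, C (lam k) * y g k)
    (f : V) (k0 : Fin r) (hf : constantCoeff (y f k0) ≠ 0) :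
    ¬ X ^ (r * (r * D) + 1) ∣ Φ f := by
  intro hdvd
  have step : ∀ t : ℕ, ∃ (v : Fin r → Polynomial K) (Ω : K⟦X⟧), constantCoeff Ω = 1 ∧
      (∀ k, (v k).natDegree ≤ t * D) ∧
      ∀ g, ∑ k, (v k : K⟦X⟧) * y g k = Ω * rescale (q ^ t) (Φ g) := by
    intro t
    induction t with
    | zero =>
      refine ⟨fun k => Polynomial.C (lam k), 1, by simp, fun k => by simp, fun g => ?_⟩
      simp [hlam g]
    | succ t ih =>
      obtain ⟨v, Ω, h1, h2, h3⟩ := ih
      refine ⟨fun m => ∑ k, sg q (v k) * B k m, (ω : K⟦X⟧) * rescale q Ω, ?_, fun m => ?_,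
        fun g => ?_⟩
      · rw [map_mul, ← coeff_zero_eq_constantCoeff_apply, ← coeff_zero_eq_constantCoeff_apply,
          coeff_rescale, Polynomial.coeff_coe, hω, coeff_zero_eq_constantCoeff_apply, h1]
        simp
      · refine Polynomial.natDegree_sum_le_of_forall_le _ _ fun k _ => ?_
        refine Polynomial.natDegree_mul_le.trans ?_
        have := natDegree_sg_le q (v k)
        have := h2 k
        have := hB k m
        rw [add_mul]; omega
      · have e1 := congrArg (fun x => (ω : K⟦X⟧) * rescale q x) (h3 g)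
        simp only [map_sum, map_mul, mul_sum, ← coe_sg, mul_left_comm (ω : K⟦X⟧), hy,
          rescale_rescale] at e1
        rw [pow_succ, mul_assoc, mul_left_comm, ← e1, sum_comm]
        refine sum_congr rfl fun m _ => ?_
        rw [← Polynomial.coeToPowerSeries.ringHom_apply, map_sum, sum_mul]
        simp [Polynomial.coeToPowerSeries.ringHom_apply, mul_assoc]
  choose v Ω h1 h2 h3 using step
  let W : Matrix (Fin r) (Fin r) (Polynomial K) := Matrix.of fun t k => v t k
  have hdet : W.det ≠ 0 := by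
    intro h0
    obtain ⟨u, hu0, hu⟩ := Matrix.exists_vecMul_eq_zero_iff.2 h0
    have := casoratian hq hq1 Φ hΦ (fun t : Fin r => (u t : K⟦X⟧) * Ω t) ?_ fun g => ?_
    · omega
    · intro h
      apply hu0
      funext t
      have h4 := congrFun h t
      simp only [Pi.zero_apply, mul_eq_zero] at h4
      rcases h4 with h4 | h4
      · exact_mod_cast h4
      · have := h1 t
        rw [h4] at this
        simp at this
    · simp only [mul_assoc, ← h3, mul_sum]
      rw [sum_comm]
      refine sum_eq_zero fun k _ => ?_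
      have h4 := congrArg Polynomial.coeToPowerSeries.ringHom (congrFun hu k)
      simp only [Matrix.vecMul, dotProduct, map_sum, map_mul, Pi.zero_apply, map_zero, W,
        Matrix.of_apply, Polynomial.coeToPowerSeries.ringHom_apply] at h4
      simp only [← mul_assoc, ← sum_mul, h4, zero_mul]
  let W' : Matrix (Fin r) (Fin r) K⟦X⟧ := Polynomial.coeToPowerSeries.ringHom.mapMatrix W
  have e1 : W'.adjugate.mulVec (W'.mulVec (y f)) = W'.det • y f := by
    rw [Matrix.mulVec_mulVec, Matrix.adjugate_mul, Matrix.smul_mulVec, Matrix.one_mulVec]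
  have e2 : X ^ (r * (r * D) + 1) ∣ W'.det * y f k0 := by
    have := congrFun e1 k0
    rw [Pi.smul_apply, smul_eq_mul] at this
    rw [← this]
    simp only [Matrix.mulVec, dotProduct]
    refine dvd_sum fun t _ => ?_
    refine Dvd.dvd.mul_left ?_ _
    have e3 : ∑ k, W' t k * y f k = Ω t * rescale (q ^ t.val) (Φ f) := by
      rw [← h3]; rfl
    rw [e3]
    refine Dvd.dvd.mul_left (X_pow_dvd_iff.2 fun k hk => ?_) _
    rw [coeff_rescale, X_pow_dvd_iff.1 hdvd k hk, mul_zero]
  rw [(isUnit_iff_constantCoeff.2 hf.isUnit).dvd_mul_right, ← RingHom.map_det,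
    Polynomial.coeToPowerSeries.ringHom_apply, X_pow_dvd_iff] at e2
  have e4 : W.det.natDegree ≤ r * (r * D) := natDegree_det_le W fun t k =>
    (h2 t k).trans (Nat.mul_le_mul_right _ t.2.le)
  apply hdet
  rw [← Polynomial.leadingCoeff_eq_zero, Polynomial.leadingCoeff, ← Polynomial.coeff_coe]
  exact e2 _ (by omega)

theorem mult [IsAlgClosed K] {q : K} (hq : q ≠ 0) (hq1 : ∀ j, j ≠ 0 → q ^ j ≠ 1) {u : ℕ → K}
    (hu : ∀ j, j ≠ 0 → u j * (1 - q ^ j) = 1) (V : Submodule K (List (Fin n) → K))
    [FiniteDimensional K V] (hV : ∀ g ∈ V, ∀ i, (fun w => g (w ++ [i])) ∈ V)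
    (hfin : ∀ g ∈ V, (Function.support g).Finite) {f : List (Fin n) → K} (hf : f ∈ V)
    (hf0 : f ≠ 0) :
    ∃ j ≤ Module.finrank K V * (Module.finrank K V * (n + 1)), Psi u j f ≠ 0 := by
  classical
  obtain ⟨r, hr⟩ : ∃ r, Module.finrank K V = r := ⟨_, rfl⟩
  rw [hr]
  obtain ⟨b⟩ : Nonempty (Module.Basis (Fin r) K V) := ⟨Module.finBasisOfFinrankEq K V hr⟩
  have hV' : ∀ (w : List (Fin n)), ∀ g ∈ V, (fun v => g (v ++ w)) ∈ V := by
    intro w
    induction w with
    | nil => intro g hg; simpa using hg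
    | cons i w ih => intro g hg; simpa using hV _ (ih g hg) i
  obtain ⟨ρ, hρs⟩ : ∃ ρ : List (Fin n) → V →ₗ[K] V, ∀ w g v, (ρ w g).1 v = g.1 (v ++ w) :=
    ⟨fun w =>
      { toFun := fun g => ⟨fun v => g.1 (v ++ w), hV' w _ g.2⟩
        map_add' := fun _ _ => rfl
        map_smul' := fun _ _ => rfl }, fun _ _ _ => rfl⟩
  have hρ : ∀ i w g, ρ (i :: w) g = ρ [i] (ρ w g) := fun i w g => by
    ext v; simp [hρs]
  have hρ0 : ∀ g, ρ [] g = g := fun g => by ext v; simp [hρs]
  let y : V → Fin r → K⟦X⟧ := fun g k => Phi u fun w => b.repr (ρ w g) k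
  let μ : Fin n → Fin r → Fin r → K := fun i k m => b.repr (ρ [i] (b m)) k
  have hμ : ∀ i k (g : V), b.repr (ρ [i] g) k = ∑ m, μ i k m * b.repr g m := fun i k g => by
    conv_lhs => rw [← b.sum_repr g]
    simp only [map_sum, map_smul, Finsupp.coe_finset_sum, Finset.sum_apply, Finsupp.smul_apply,
      smul_eq_mul, μ, mul_comm]
  obtain ⟨k0, hk0⟩ : ∃ k0, b.repr ⟨f, hf⟩ k0 ≠ 0 := by
    by_contra hc
    push Not at hc
    have : (⟨f, hf⟩ : V) = 0 := b.repr.injective (by ext k; simp [hc k])
    exact hf0 (congrArg Subtype.val this)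
  have := mult_abstract hq hq1 ((Phi u).comp V.subtype)
    (fun g hg => Subtype.ext (Phi_ne_zero hq hq1 hu (hfin _ g.2) hg)) hr y
    (1 - Polynomial.X ^ (n + 1)) (by simp) (n + 1)
    (Matrix.of fun k m => (if k = m then 1 - Polynomial.X ^ (n + 1) else 0) -
      ∑ i : Fin n, Polynomial.C (μ i k m) * Polynomial.X ^ (i.val + 1))
    (fun k m => ?_) (fun g k => ?_) (fun k => (b k).1 []) (fun g => ?_) ⟨f, hf⟩ k0 ?_
  · rw [X_pow_dvd_iff] at this
    push Not at this
    obtain ⟨j, hj, h⟩ := this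
    exact ⟨j, by omega, by simpa using h⟩
  · refine (Polynomial.natDegree_sub_le _ _).trans (max_le ?_ ?_)
    · split_ifs
      · exact (Polynomial.natDegree_sub_le _ _).trans (by simp)
      · simp
    · exact Polynomial.natDegree_sum_le_of_forall_le _ _ fun i _ =>
        (Polynomial.natDegree_C_mul_X_pow_le _ _).trans (by have := i.2; omega)
  · have e1 : ∀ i : Fin n, Phi u (fun w => b.repr (ρ (i :: w) g) k) =
        ∑ m, C (μ i k m) * y g m := fun i => by
      have : (fun w => b.repr (ρ (i :: w) g) k) =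
          ∑ m, μ i k m • fun w => b.repr (ρ w g) m := by
        funext w
        simp [hρ i w, hμ]
      rw [this, map_sum]
      simp [y, smul_eq_C_mul]
    have e2 : ∀ m, ((∑ i : Fin n, Polynomial.C (μ i k m) * Polynomial.X ^ (i.val + 1) :
        Polynomial K) : K⟦X⟧) = ∑ i : Fin n, C (μ i k m) * X ^ (i.val + 1) := fun m => by
      rw [← Polynomial.coeToPowerSeries.ringHom_apply, map_sum]
      simp [Polynomial.coeToPowerSeries.ringHom_apply]
    simp only [Polynomial.coe_sub, Polynomial.coe_one, Polynomial.coe_pow, Polynomial.coe_X,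
      Matrix.of_apply, e2, sub_mul, sum_sub_distrib, apply_ite ((↑) : Polynomial K → K⟦X⟧),
      Polynomial.coe_zero, ite_mul, zero_mul, sum_ite_eq, mem_univ, if_true]
    rw [← sub_mul, ← sub_mul]
    simp only [y]
    rw [omega_mul_rescale_Phi hu]
    simp only [e1, mul_sum, sum_mul]
    rw [sum_comm]
    congr 1
    refine sum_congr rfl fun m _ => sum_congr rfl fun i _ => ?_
    simp only [y]
    ring
  · have : (g.1 : List (Fin n) → K) = ∑ k, (b k).1 [] • fun w => b.repr (ρ w g) k := by
      funext w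
      have e1 := congrFun (congrArg Subtype.val (b.sum_repr (ρ w g))) []
      rw [hρs, List.nil_append] at e1
      rw [← e1]
      simp only [AddSubmonoidClass.coe_finset_sum, SetLike.val_smul, Finset.sum_apply,
        Pi.smul_apply, smul_eq_mul, mul_comm]
    rw [LinearMap.comp_apply, Submodule.subtype_apply, this, map_sum]
    simp [y, smul_eq_C_mul]
  · simp only [y, constantCoeff_Phi, hρ0]
    exact hk0

end Vale.Agent.P314
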