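import Vale.Agent.P314.Defs
import Vale.Agent.P314.Mult

namespace Vale.Agent.P314

open Finset PowerSeries

section space

variable {F K A : Type} [Field F] [Field K] [Ring A] [Algebra K A] {n : ℕ}

def Dec (x : Fin n → A) (V : Submodule K A) (g : A) : Prop :=
  ∃ (a : K) (gs : Fin n → A), (∀ j, gs j ∈ V) ∧ g = algebraMap K A a + ∑ j, gs j * x j

theorem Dec.mono {x : Fin n → A} {V W : Submodule K A} (h : V ≤ W) {g : A} (hg : Dec x V g) :
    Dec x W g := by
  obtain ⟨a, gs, h1, h2⟩ := hg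
  exact ⟨a, gs, fun j => h (h1 j), h2⟩

theorem Dec.add {x : Fin n → A} {V : Submodule K A} {f g : A} (hf : Dec x V f) (hg : Dec x V g) :
    Dec x V (f + g) := by
  obtain ⟨a, gs, h1, h2⟩ := hf
  obtain ⟨b, hs, h3, h4⟩ := hg
  refine ⟨a + b, fun j => gs j + hs j, fun j => V.add_mem (h1 j) (h3 j), ?_⟩
  simp only [h2, h4, map_add, add_mul, sum_add_distrib]
  abel

theorem exists_space (x : Fin n → A) (ψ : FreeAlgebra F (Fin n) →+* A)
    (hx : ∀ i, ψ (FreeAlgebra.ι F i) = x i)
    (hc : ∀ a, ∃ b, ψ (algebraMap F _ a) = algebraMap K A b) (φ : Formula F n) :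
    ∃ V : Submodule K A, FiniteDimensional K V ∧ Module.finrank K V ≤ φ.size + 1 ∧
      ψ φ.poly ∈ V ∧ ∀ g ∈ V, Dec x V g := by
  have hsp : ∀ y : A, Module.finrank K (K ∙ y) ≤ 1 := fun y => by
    simpa using finrank_span_le_card (R := K) ({y} : Set A)
  have h1 : ∀ g ∈ (K ∙ (1 : A)), ∀ V : Submodule K A, Dec x V g := fun g hg V => by
    obtain ⟨a, rfl⟩ := Submodule.mem_span_singleton.1 hg
    exact ⟨a, 0, fun _ => V.zero_mem, by simp [Algebra.algebraMap_eq_smul_one]⟩
  induction φ with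
  | var i =>
    refine ⟨(K ∙ (1 : A)) ⊔ (K ∙ x i), inferInstance, ?_, ?_, fun g hg => ?_⟩
    · exact (Submodule.finrank_add_le_finrank_add_finrank _ _).trans
        (add_le_add (hsp _) (hsp _))
    · rw [Formula.poly, hx]
      exact Submodule.mem_sup_right (Submodule.mem_span_singleton_self _)
    · obtain ⟨g1, hg1, g2, hg2, rfl⟩ := Submodule.mem_sup.1 hg
      refine (h1 _ hg1 _).add ?_
      obtain ⟨a, rfl⟩ := Submodule.mem_span_singleton.1 hg2
      refine ⟨0, Pi.single i (a • 1), fun j => ?_, ?_⟩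
      · rw [Pi.single_apply]
        split_ifs
        · exact Submodule.mem_sup_left
            (Submodule.smul_mem _ _ (Submodule.mem_span_singleton_self _))
        · exact Submodule.zero_mem _
      · simp [Pi.single_apply]
  | const a =>
    refine ⟨K ∙ (1 : A), inferInstance, (hsp _).trans (by simp), ?_, fun g hg => h1 g hg _⟩
    obtain ⟨b, hb⟩ := hc a
    rw [Formula.poly, hb, Algebra.algebraMap_eq_smul_one]
    exact Submodule.smul_mem _ _ (Submodule.mem_span_singleton_self _)
  | add f g ihf ihg =>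
    obtain ⟨V, _, hV1, hV2, hV3⟩ := ihf
    obtain ⟨W, _, hW1, hW2, hW3⟩ := ihg
    refine ⟨V ⊔ W, inferInstance, ?_, ?_, fun g hg => ?_⟩
    · have := Submodule.finrank_add_le_finrank_add_finrank V W
      simp only [Formula.size]; omega
    · rw [Formula.poly, map_add]
      exact Submodule.add_mem_sup hV2 hW2
    · obtain ⟨g1, hg1, g2, hg2, rfl⟩ := Submodule.mem_sup.1 hg
      exact ((hV3 _ hg1).mono le_sup_left).add ((hW3 _ hg2).mono le_sup_right)
  | mul f g ihf ihg =>
    obtain ⟨V, _, hV1, hV2, hV3⟩ := ihf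
    obtain ⟨W, _, hW1, hW2, hW3⟩ := ihg
    refine ⟨V ⊔ W.map (LinearMap.mulLeft K (ψ f.poly)), inferInstance, ?_, ?_, fun g hg => ?_⟩
    · have := Submodule.finrank_add_le_finrank_add_finrank V
        (W.map (LinearMap.mulLeft K (ψ f.poly)))
      have := Submodule.finrank_map_le (LinearMap.mulLeft K (ψ f.poly)) W
      simp only [Formula.size]; omega
    · rw [Formula.poly, map_mul]
      exact Submodule.mem_sup_right ⟨_, hW2, rfl⟩
    · obtain ⟨g1, hg1, g2, ⟨g3, hg3, rfl⟩, rfl⟩ := Submodule.mem_sup.1 hg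
      refine ((hV3 _ hg1).mono le_sup_left).add ?_
      obtain ⟨a, gs, h2, h3⟩ := hW3 _ hg3
      obtain ⟨b, fs, h4, h5⟩ := hV3 _ hV2
      refine ⟨a * b, fun j => a • fs j + ψ f.poly * gs j, fun j =>
        Submodule.add_mem_sup (V.smul_mem _ (h4 j)) ⟨_, h2 j, rfl⟩, ?_⟩
      rw [LinearMap.mulLeft_apply, h3, mul_add, ← Algebra.commutes, ← Algebra.smul_def]
      simp only [add_mul, sum_add_distrib, mul_sum, mul_assoc, smul_mul_assoc, ← smul_sum]
      rw [← add_assoc]
      congr 1
      conv_lhs => rw [h5]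
      rw [smul_add, map_mul, Algebra.smul_def]

end space

variable {F : Type} [Field F] {n : ℕ}

/-- Coefficients of a noncommutative polynomial. -/
noncomputable def cf (p : FreeAlgebra F (Fin n)) (w : List (Fin n)) : F :=
  (FreeAlgebra.equivMonoidAlgebraFreeMonoid p).coeff (FreeMonoid.ofList w)

theorem order_bound {K : Type} [Field K] [IsAlgClosed K] (θ : F →+* K) {q : K} (hq : q ≠ 0)
    (hq1 : ∀ j, j ≠ 0 → q ^ j ≠ 1) {u : ℕ → K} (hu : ∀ j, j ≠ 0 → u j * (1 - q ^ j) = 1)
    (φ : Formula F n) (h : φ.poly ≠ 0) :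
    ∃ j ≤ (φ.size + 1) * ((φ.size + 1) * (n + 1)), Psi u j (fun w => θ (cf φ.poly w)) ≠ 0 := by
  classical
  let ψ : FreeAlgebra F (Fin n) →+* MonoidAlgebra K (FreeMonoid (Fin n)) := (MonoidAlgebra.mapRingHom _ θ).comp
    (FreeAlgebra.equivMonoidAlgebraFreeMonoid (R := F) (X := Fin n)).toRingEquiv.toRingHom
  obtain ⟨V, _, hV1, hV2, hV3⟩ := exists_space (K := K)
    (fun i => MonoidAlgebra.single (FreeMonoid.of i) 1) ψ
    (fun i => by simp [ψ, FreeAlgebra.equivMonoidAlgebraFreeMonoid])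
    (fun a => ⟨θ a, by simp [ψ]⟩) φ
  obtain ⟨L, hLs⟩ : ∃ L : MonoidAlgebra K (FreeMonoid (Fin n)) →ₗ[K] (List (Fin n) → K),
      ∀ g w, L g w = g.coeff (FreeMonoid.ofList w) :=
    ⟨{ toFun := fun g w => g.coeff (FreeMonoid.ofList w)
       map_add' := fun _ _ => rfl
       map_smul' := fun _ _ => rfl }, fun _ _ => rfl⟩
  have hL : L (ψ φ.poly) = fun w => θ (cf φ.poly w) := by
    funext w
    simp [hLs, ψ, cf]
  have := mult hq hq1 hu (V.map L) ?_ ?_ (f := L (ψ φ.poly)) ⟨_, hV2, rfl⟩ ?_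
  · obtain ⟨j, hj, h⟩ := this
    have h1 := (Submodule.finrank_map_le L V).trans hV1
    exact ⟨j, hj.trans (Nat.mul_le_mul h1 (Nat.mul_le_mul_right _ h1)), hL ▸ h⟩
  · rintro _ ⟨g, hg, rfl⟩ i
    obtain ⟨a, gs, h1, h2⟩ := hV3 g hg
    refine ⟨gs i, h1 i, ?_⟩
    funext w
    have e : FreeMonoid.ofList (w ++ [i]) = FreeMonoid.ofList w * FreeMonoid.of i := rfl
    simp only [hLs, h2, e, MonoidAlgebra.coeff_add,
      MonoidAlgebra.coeff_sum, Finsupp.add_apply, Finsupp.finset_sum_apply]
    rw [sum_eq_single i, MonoidAlgebra.coeff_mul_single_mul, MonoidAlgebra.coe_algebraMap,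
      Function.comp_apply, MonoidAlgebra.coeff_single, Finsupp.single_eq_of_ne, zero_add, mul_one]
    · intro h
      have := congrArg FreeMonoid.toList h
      simp at this
    · intro j _ hj
      refine MonoidAlgebra.coeff_mul_single_of_forall_mul_ne _ _ fun d h => hj ?_
      have := congrArg FreeMonoid.toList h
      simp only [FreeMonoid.toList_mul, FreeMonoid.toList_of, FreeMonoid.toList_ofList] at this
      simpa using (List.append_inj' this rfl).2
    · simp
  · rintro _ ⟨g, -, rfl⟩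
    rw [show L g = fun w => g.coeff (FreeMonoid.ofList w) from funext (hLs g)]
    exact (g.coeff.hasFiniteSupport.preimage (f := FreeMonoid.ofList)
      FreeMonoid.ofList.injective.injOn)
  · rw [hL]
    intro h0
    apply h
    apply FreeAlgebra.equivMonoidAlgebraFreeMonoid.injective
    rw [map_zero]
    ext w
    have := congrFun h0 (FreeMonoid.toList w)
    simpa [cf] using this

/-- The series `1 / (1 - t ^ j)`. -/
noncomputable def uu (F : Type) [Field F] (j : ℕ) : F⟦X⟧ :=
  PowerSeries.mk fun a => if j ∣ a then 1 else 0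

theorem uu_mul {j : ℕ} (hj : j ≠ 0) : uu F j * (1 - X ^ j) = 1 := by
  ext m
  rw [mul_sub, mul_one, map_sub, coeff_mul_X_pow', coeff_one]
  simp only [uu, coeff_mk]
  by_cases h : j ≤ m
  · rw [if_pos h, if_neg (show m ≠ 0 by omega)]
    simp only [Nat.dvd_sub_iff_left h (dvd_refl j), sub_self]
  · rw [if_neg h, sub_zero]
    by_cases h0 : m = 0
    · simp [h0]
    · rw [if_neg h0, if_neg (fun hd => h (Nat.le_of_dvd (by omega) hd))]

theorem numer (j : ℕ) : ∀ j' ≤ j, ∀ c : List (Fin n) → F, ∃ p : Polynomial F, p.natDegree ≤ j ^ 2 ∧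
    (∏ l ∈ range j, (1 - X ^ (l + 1))) * Psi (uu F) j' (fun w => C (c w)) = (p : F⟦X⟧) := by
  induction j with
  | zero =>
    intro j' hj' c
    obtain rfl : j' = 0 := by omega
    exact ⟨Polynomial.C (c []), by simp, by simp [Psi_zero]⟩
  | succ j ih =>
    intro j' hj' c
    rcases Nat.lt_or_eq_of_le hj' with h | rfl
    · obtain ⟨p, h1, h2⟩ := ih j' (by omega) c
      refine ⟨(1 - Polynomial.X ^ (j + 1)) * p, ?_, ?_⟩
      · refine Polynomial.natDegree_mul_le.trans ?_
        have : (1 - Polynomial.X ^ (j + 1) : Polynomial F).natDegree ≤ j + 1 :=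
          (Polynomial.natDegree_sub_le _ _).trans (by simp)
        nlinarith
      · rw [prod_range_succ, mul_right_comm, h2, mul_comm]
        simp
    · choose! p h1 h2 using ih
      refine ⟨∑ j' ∈ range (j + 1), ∑ i : Fin n,
        if (j + 1 - j') % (n + 1) = i + 1 then p j' (fun w => c (i :: w)) else 0, ?_, ?_⟩
      · refine Polynomial.natDegree_sum_le_of_forall_le _ _ fun j' hj' =>
          Polynomial.natDegree_sum_le_of_forall_le _ _ fun i _ => ?_
        split_ifs
        · exact (h1 j' (by simpa [Nat.lt_succ_iff] using hj') _).trans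
            (Nat.pow_le_pow_left (by omega) 2)
        · simp
      · rw [prod_range_succ, Psi_pos _ (Nat.succ_ne_zero j), mul_assoc, ← mul_assoc (1 - _),
          mul_comm (1 - _), uu_mul (Nat.succ_ne_zero j), one_mul, mul_sum,
          ← Polynomial.coeToPowerSeries.ringHom_apply, map_sum]
        refine sum_congr rfl fun j' hj' => ?_
        rw [mul_sum, map_sum]
        refine sum_congr rfl fun i _ => ?_
        split_ifs
        · exact h2 j' (by simpa [Nat.lt_succ_iff] using hj') _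
        · simp

theorem exists_coeff (φ : Formula F n) (h : φ.poly ≠ 0) :
    ∃ j ≤ (φ.size + 1) * ((φ.size + 1) * (n + 1)), ∃ a ≤ j ^ 2,
      coeff a (Psi (uu F) j fun w => C (cf φ.poly w)) ≠ 0 := by
  let K := AlgebraicClosure (FractionRing F⟦X⟧)
  let θ : F⟦X⟧ →+* K := (algebraMap (FractionRing F⟦X⟧) K).comp (algebraMap F⟦X⟧ _)
  have hθ : Function.Injective θ :=
    (algebraMap (FractionRing F⟦X⟧) K).injective.comp (IsFractionRing.injective _ _)
  obtain ⟨j, hj, h1⟩ := order_bound (θ.comp C) (q := θ X) (u := fun j => θ (uu F j))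
    (by rw [map_ne_zero_iff θ hθ]; exact X_ne_zero)
    (fun j hj h => by
      rw [← map_pow, ← map_one θ] at h
      have := congrArg constantCoeff (hθ h)
      simp [hj] at this)
    (fun j hj => by rw [← map_pow, ← map_one θ, ← map_sub, ← map_mul, uu_mul hj]) φ h
  refine ⟨j, hj, ?_⟩
  by_contra hc
  push Not at hc
  apply h1
  obtain ⟨p, hp1, hp2⟩ := numer j j le_rfl (cf φ.poly)
  have h2 : X ^ (j ^ 2 + 1) ∣ (p : F⟦X⟧) := by
    rw [← hp2]
    exact Dvd.dvd.mul_left (X_pow_dvd_iff.2 fun a ha => hc a (by omega)) _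
  have h3 : p = 0 := by
    rw [← Polynomial.leadingCoeff_eq_zero, Polynomial.leadingCoeff, ← Polynomial.coeff_coe]
    exact X_pow_dvd_iff.1 h2 _ (by omega)
  rw [h3, Polynomial.coe_zero, mul_eq_zero] at hp2
  rcases hp2 with h4 | h4
  · have := congrArg constantCoeff h4
    simp at this
  · have := Psi_map θ (uu F) j fun w => C (cf φ.poly w)
    rw [h4, map_zero] at this
    exact this.symm

/-- The entries of the hitting tuple. -/
def ent (n M i x y : ℕ) : Bool :=
  Nat.beq ((x / M - y / M) % (n + 1)) (i + 1) &&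
    (Nat.ble (y % M) (x % M) && Nat.beq ((x % M - y % M) % (x / M)) 0)

def Tm (F : Type) [Field F] (n N M : ℕ) (i : Fin n) : Matrix (Fin (N * M)) (Fin (N * M)) F :=
  Matrix.of fun x y => cond (ent n M i x y) 1 0

noncomputable def pv (N M : ℕ) (c : List (Fin n) → F) : Fin (N * M) → F :=
  fun x => coeff (x % M) (Psi (uu F) (x / M) fun w => C (c w))

theorem sum_fin_mul (N M : ℕ) (G : ℕ → ℕ → F) :
    ∑ y : Fin (N * M), G (y / M) (y % M) = ∑ j ∈ range N, ∑ a ∈ range M, G j a := by
  rw [← finProdFinEquiv.sum_comp, Fintype.sum_prod_type, sum_range]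
  refine sum_congr rfl fun j _ => ?_
  rw [sum_range]
  refine sum_congr rfl fun a _ => ?_
  have ha := a.2
  have hM : 0 < M := by omega
  simp only [finProdFinEquiv_apply_val]
  rw [Nat.add_mul_div_left _ _ hM, Nat.div_eq_of_lt ha, zero_add, Nat.add_mul_mod_self_left,
    Nat.mod_eq_of_lt ha]

theorem Tm_mulVec (N M : ℕ) (i : Fin n) (w : List (Fin n)) :
    (Tm F n N M i).mulVec (pv N M (Pi.single w 1)) = pv N M (Pi.single (i :: w) 1) := by
  funext x
  have hM : 0 < M := by
    rcases Nat.eq_zero_or_pos M with h | h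
    · subst h; exact absurd x.2 (by simp)
    · exact h
  have hj : x / M < N := by
    rw [Nat.div_lt_iff_lt_mul hM]; exact x.2
  have ha : x % M < M := Nat.mod_lt _ hM
  simp only [Matrix.mulVec, dotProduct, Tm, Matrix.of_apply, pv, ent]
  generalize (x : ℕ) / M = j at *
  generalize (x : ℕ) % M = a at *
  rw [sum_fin_mul N M fun j' a' => cond (Nat.beq ((j - j') % (n + 1)) (i + 1) &&
    (Nat.ble a' a && Nat.beq ((a - a') % j) 0)) (1 : F) 0 *
      coeff a' (Psi (uu F) j' fun v => C ((Pi.single w 1 : List (Fin n) → F) v))]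
  simp only [Bool.cond_eq_ite, Bool.and_eq_true, Nat.beq_eq, Nat.ble_eq, ite_mul, one_mul,
    zero_mul]
  by_cases h0 : j = 0
  · subst h0
    simp [Psi_zero]
  rw [Psi_pos _ h0, mul_sum, map_sum,
    ← sum_subset (range_subset_range.2 hj.le) fun j' _ hj' => ?_]
  · refine sum_congr rfl fun j' _ => ?_
    rw [sum_eq_single i]
    · split_ifs with h
      · simp only [h, true_and]
        rw [mul_comm, coeff_mul, Finset.Nat.sum_antidiagonal_eq_sum_range_succ_mk,
          ← sum_subset (range_subset_range.2 (Nat.succ_le_of_lt ha)) fun a' _ ha' => ?_]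
        · refine sum_congr rfl fun a' ha' => ?_
          have : a' ≤ a := by simpa [Nat.lt_succ_iff] using ha'
          simp [this, uu, Nat.dvd_iff_mod_eq_zero, Pi.single_apply]
        · rw [if_neg]
          simp only [mem_range, not_lt] at ha'
          omega
      · simp [h]
    · intro i' _ hi'
      have : (fun v => C ((Pi.single (i :: w) 1 : List (Fin n) → F) (i' :: v))) =
          (0 : F⟦X⟧) • (0 : List (Fin n) → F⟦X⟧) := by
        funext v
        simp [hi']
      rw [this, Psi_smul]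
      simp
    · simp
  · refine sum_eq_zero fun a' _ => if_neg ?_
    simp only [mem_range, not_lt] at hj'
    rw [Nat.sub_eq_zero_of_le hj']
    simp

theorem lift_mulVec (N M : ℕ) (p : FreeAlgebra F (Fin n)) :
    (FreeAlgebra.lift F (Tm F n N M) p).mulVec (pv N M (Pi.single ([] : List (Fin n)) 1)) =
      pv N M (cf p) := by
  have e1 : FreeAlgebra.lift F (Tm F n N M) =
      (MonoidAlgebra.lift F _ _ (FreeMonoid.lift (Tm F n N M))).comp
        (FreeAlgebra.equivMonoidAlgebraFreeMonoid (R := F) (X := Fin n)).toAlgHom := by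
    ext i : 2
    simp [FreeAlgebra.equivMonoidAlgebraFreeMonoid]
  have e2 : ∀ w : List (Fin n), (FreeMonoid.lift (Tm F n N M) (FreeMonoid.ofList w)).mulVec
      (pv N M (Pi.single ([] : List (Fin n)) 1)) = pv N M (Pi.single w 1) := by
    intro w
    induction w with
    | nil => simp
    | cons i w ih =>
      rw [FreeMonoid.ofList_cons, map_mul, ← Matrix.mulVec_mulVec, ih, FreeMonoid.lift_eval_of,
        Tm_mulVec]
  rw [e1]
  unfold cf
  simp only [AlgHom.comp_apply, AlgEquiv.coe_algHom]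
  generalize FreeAlgebra.equivMonoidAlgebraFreeMonoid p = g
  induction g using MonoidAlgebra.induction_linear with
  | zero =>
    funext x
    have := Psi_smul (uu F) 0 (x / M) (fun _ : List (Fin n) => (0 : F⟦X⟧))
    rw [zero_mul, zero_smul] at this
    have h2 : (fun _ : List (Fin n) => (0 : F⟦X⟧)) = 0 := rfl
    simp [pv, h2, this]
  | add f g hf hg =>
    rw [map_add, Matrix.add_mulVec, hf, hg]
    funext x
    simp only [pv, Pi.add_apply, ← map_add, ← Psi_add]
    congr 2
    funext w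
    simp
  | single w a =>
    rw [MonoidAlgebra.lift_single, Matrix.smul_mulVec, ← FreeMonoid.ofList_toList w, e2]
    funext x
    simp only [pv, Pi.smul_apply, smul_eq_mul, ← coeff_C_mul, ← Psi_smul]
    congr 2
    funext v
    by_cases hv : v = FreeMonoid.toList w
    · rw [hv]; simp
    · have : FreeMonoid.ofList v ≠ w := fun h => hv (by rw [← h]; rfl)
      simp [hv, Finsupp.single_eq_of_ne this]

/-- The hitting tuple. -/
def hitTuple (F : Type) [Field F] (n s : ℕ) : Tuple F n :=
  ⟨((s + 1) * ((s + 1) * (n + 1)) + 1) * ((s + 1) * ((s + 1) * (n + 1)) + 1) ^ 2,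
    Tm F n ((s + 1) * ((s + 1) * (n + 1)) + 1) (((s + 1) * ((s + 1) * (n + 1)) + 1) ^ 2)⟩

theorem hit_aux (φ : Formula F n) (h : φ.poly ≠ 0) (N : ℕ)
    (hN : (φ.size + 1) * ((φ.size + 1) * (n + 1)) < N) :
    FreeAlgebra.lift F (Tm F n N (N ^ 2)) φ.poly ≠ 0 := by
  intro h0
  obtain ⟨j, hj, a, ha, h1⟩ := exists_coeff φ h
  have hjN : j < N := by omega
  have haN : a < N ^ 2 := lt_of_le_of_lt ha (Nat.pow_lt_pow_left hjN (by omega))
  have h2 := lift_mulVec N (N ^ 2) φ.poly
  rw [h0, Matrix.zero_mulVec] at h2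
  have h3 := congrFun h2 (finProdFinEquiv (⟨j, hjN⟩, ⟨a, haN⟩))
  simp only [pv, finProdFinEquiv_apply_val, Pi.zero_apply] at h3
  rw [Nat.add_mul_div_left _ _ (by omega), Nat.div_eq_of_lt haN, zero_add,
    Nat.add_mul_mod_self_left, Nat.mod_eq_of_lt haN] at h3
  exact h1 h3.symm

theorem hitting (n s : ℕ) : IsHittingSet n s [hitTuple F n s] := by
  intro φ hs h
  refine ⟨_, List.mem_singleton_self _, hit_aux φ h _ ?_⟩
  have : (φ.size + 1) * ((φ.size + 1) * (n + 1)) ≤ (s + 1) * ((s + 1) * (n + 1)) := by gcongr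
  omega

end Vale.Agent.P314
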