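import Mathlib

/-! A pole lemma for the dilation `z ↦ q z`. -/

namespace Vale.Agent.P314

open Polynomial

variable {K : Type} [Field K]

/-- The dilation on polynomials. -/
noncomputable def sg (q : K) : K[X] →+* K[X] := compRingHom (C q * X)

theorem sg_apply (q : K) (p : K[X]) : sg q p = p.comp (C q * X) := rfl

theorem eval_sg (q : K) (p : K[X]) (x : K) : (sg q p).eval x = p.eval (q * x) := by
  simp [sg_apply, eval_comp]

theorem coeff_sg (q : K) (p : K[X]) (k : ℕ) : (sg q p).coeff k = p.coeff k * q ^ k := by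
  rw [sg_apply, comp_C_mul_X_coeff]

theorem sg_C (q a : K) : sg q (C a) = C a := by simp [sg_apply]

theorem sg_X (q : K) : sg q X = C q * X := by simp [sg_apply]

theorem sg_ne_zero {q : K} (hq : q ≠ 0) {p : K[X]} (hp : p ≠ 0) : sg q p ≠ 0 := by
  intro h
  apply hp
  ext k
  have := congrArg (fun r => r.coeff k) h
  simp only [coeff_sg, coeff_zero, mul_eq_zero, pow_eq_zero_iff', hq, false_and, or_false] at this
  simpa using this

theorem natDegree_sg_le (q : K) (p : K[X]) : (sg q p).natDegree ≤ p.natDegree := by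
  rw [natDegree_le_iff_coeff_eq_zero]
  intro k hk
  rw [coeff_sg, coeff_eq_zero_of_natDegree_lt hk, zero_mul]

theorem coe_sg (q : K) (p : K[X]) :
    ((sg q p : K[X]) : PowerSeries K) = PowerSeries.rescale q (p : PowerSeries K) := by
  ext k
  rw [PowerSeries.coeff_rescale, coeff_coe, coeff_coe, coeff_sg, mul_comm]

theorem pow_injective' {q : K} (hq : q ≠ 0) (hq1 : ∀ j, j ≠ 0 → q ^ j ≠ 1) :
    Function.Injective fun k : ℕ => q ^ k := by
  intro a b h
  simp only at h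
  by_contra hab
  wlog hlt : a < b generalizing a b
  · exact this h.symm (Ne.symm hab) (by omega)
  obtain ⟨c, rfl⟩ := Nat.exists_eq_add_of_lt hlt
  apply hq1 (c + 1) (by omega)
  have h2 : q ^ a * q ^ (c + 1) = q ^ a * 1 := by rw [← pow_add, mul_one, ← add_assoc, ← h]
  exact mul_left_cancel₀ (pow_ne_zero _ hq) h2

theorem exists_last_root {q : K} (hq : q ≠ 0) (hq1 : ∀ j, j ≠ 0 → q ^ j ≠ 1) {p : K[X]}
    (hp : p ≠ 0) {ζ : K} (hζ : ζ ≠ 0) (h : p.eval ζ = 0) :
    ∃ k : ℕ, p.eval (ζ * q ^ k) = 0 ∧ p.eval (ζ * q ^ (k + 1)) ≠ 0 := by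
  by_contra hc
  push Not at hc
  have hall : ∀ k : ℕ, p.eval (ζ * q ^ k) = 0 := fun k => by
    induction k with
    | zero => simpa using h
    | succ k ih => exact hc k ih
  apply hp
  apply Polynomial.eq_zero_of_infinite_isRoot
  refine Set.infinite_of_injective_forall_mem (f := fun k : ℕ => ζ * q ^ k) ?_ hall
  intro a b hab
  exact pow_injective' hq hq1 (mul_left_cancel₀ hζ hab)

theorem pole_coprime [IsAlgClosed K] {q : K} (hq : q ≠ 0) (hq1 : ∀ j, j ≠ 0 → q ^ j ≠ 1) {n : ℕ}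
    {a b s : K[X]} (ha : a ≠ 0) (hab : IsCoprime a b) (hs : s.natDegree ≤ n)
    (h : (1 - X ^ (n + 1)) * (a * sg q b - sg q a * b) = a * sg q a * s) :
    s = 0 ∧ ∃ c, b = C c * a := by
  have hco : ∀ x, a.eval x = 0 → b.eval x ≠ 0 := fun x h1 h2 => by
    obtain ⟨u, v, huv⟩ := hab
    have := congrArg (eval x) huv
    simp [h1, h2] at this
  have hroot : ∀ ζ, ζ ≠ 0 → a.eval ζ ≠ 0 := fun ζ hζ h0 => by
    obtain ⟨k, hk, hk'⟩ := exists_last_root hq hq1 ha hζ h0
    obtain ⟨l, hl, hl'⟩ := exists_last_root (inv_ne_zero hq)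
      (fun j hj h => hq1 j hj (by rwa [inv_pow, inv_eq_one] at h)) ha hζ h0
    have e1 := congrArg (eval (ζ * q ^ k)) h
    have e2 := congrArg (eval (ζ * q⁻¹ ^ (l + 1))) h
    have x1 : q * (ζ * q ^ k) = ζ * q ^ (k + 1) := by ring
    have x2 : q * (ζ * q⁻¹ ^ (l + 1)) = ζ * q⁻¹ ^ l := by
      rw [pow_succ]; field_simp
    simp only [eval_mul, eval_sub, eval_one, eval_pow, eval_X, eval_sg, x1, x2, hk, hl, zero_mul,
      mul_zero, zero_sub, sub_zero, mul_neg, neg_eq_zero, mul_eq_zero, hk', hl', hco _ hk,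
      hco _ hl, or_self, or_false] at e1 e2
    apply hq1 ((k + (l + 1)) * (n + 1)) (by positivity)
    have x3 : ζ * q ^ k = ζ * q⁻¹ ^ (l + 1) * q ^ (k + (l + 1)) := by
      rw [inv_pow, pow_add q k]; field_simp
    rw [x3, mul_pow, ← pow_mul, ← sub_eq_zero.1 e2, one_mul] at e1
    exact (sub_eq_zero.1 e1).symm
  obtain ⟨a', ha', hnd⟩ := exists_eq_pow_rootMultiplicity_mul_and_not_dvd a ha 0
  set e := rootMultiplicity 0 a
  rw [C_0, sub_zero] at ha' hnd
  have hdeg : a'.degree = 0 := by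
    by_contra hd
    obtain ⟨x, hx⟩ := IsAlgClosed.exists_root a' hd
    by_cases hx0 : x = 0
    · subst hx0
      exact hnd (X_dvd_iff.2 (by rwa [coeff_zero_eq_eval_zero]))
    · apply hroot x hx0
      rw [ha', eval_mul, hx.eq_zero, mul_zero]
  obtain ⟨c, hc⟩ : ∃ c, a' = C c := ⟨_, eq_C_of_degree_eq_zero hdeg⟩
  have hc0 : c ≠ 0 := by
    rintro rfl
    exact ha (by rw [ha', hc]; simp)
  have hsa : sg q a = C (q ^ e) * a := by
    conv_lhs => rw [ha', hc]
    conv_rhs => rw [ha', hc]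
    rw [map_mul, map_pow, sg_X, sg_C, mul_pow, C_pow]; ring
  have h2 : (1 - X ^ (n + 1)) * (sg q b - C (q ^ e) * b) = C (q ^ e) * a * s := by
    apply mul_left_cancel₀ ha
    rw [hsa] at h
    linear_combination h
  have hcop : IsCoprime (1 - X ^ (n + 1) : K[X]) (C (q ^ e) * a) := by
    rw [ha', hc]
    refine IsCoprime.mul_right ?_ (IsCoprime.mul_right (IsCoprime.pow_right ?_) ?_)
    · exact ⟨0, C (q ^ e)⁻¹, by rw [zero_mul, zero_add, ← C_mul, inv_mul_cancel₀ (pow_ne_zero _ hq), C_1]⟩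
    · exact ⟨1, X ^ n, by ring⟩
    · exact ⟨0, C c⁻¹, by rw [zero_mul, zero_add, ← C_mul, inv_mul_cancel₀ hc0, C_1]⟩
  have hdv : (1 - X ^ (n + 1) : K[X]) ∣ s := hcop.dvd_of_dvd_mul_left ⟨_, h2.symm⟩
  have hω : (1 - X ^ (n + 1) : K[X]).natDegree = n + 1 := by
    rw [← natDegree_neg, neg_sub, ← C_1, natDegree_X_pow_sub_C]
  have hs0 : s = 0 := eq_zero_of_dvd_of_natDegree_lt hdv (by omega)
  refine ⟨hs0, b.coeff e / c, ?_⟩
  have hω0 : (1 - X ^ (n + 1) : K[X]) ≠ 0 := by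
    intro h0; rw [h0] at hω; simp at hω
  rw [hs0, mul_zero, mul_eq_zero, or_iff_right hω0, sub_eq_zero] at h2
  ext k
  have := congrArg (fun r => r.coeff k) h2
  simp only [coeff_sg, coeff_C_mul] at this
  rw [ha', hc, coeff_C_mul, coeff_mul_C, coeff_X_pow]
  split_ifs with hk
  · subst hk; field_simp
  · rw [zero_mul, mul_zero]
    by_contra hb
    rw [mul_comm] at this
    exact hk (pow_injective' hq hq1 (mul_right_cancel₀ hb this))

theorem pole [IsAlgClosed K] {q : K} (hq : q ≠ 0) (hq1 : ∀ j, j ≠ 0 → q ^ j ≠ 1) {n : ℕ}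
    {a b s : K[X]} (ha : a ≠ 0) (hs : s.natDegree ≤ n)
    (h : (1 - X ^ (n + 1)) * (a * sg q b - sg q a * b) = a * sg q a * s) :
    s = 0 ∧ ∃ c, b = C c * a := by
  classical
  obtain ⟨a', b', h1, h2, h3⟩ := extract_gcd a b
  set g := gcd a b
  have hg : g ≠ 0 := by
    intro h0; exact ha (by rw [h1, h0, zero_mul])
  have ha' : a' ≠ 0 := by
    intro h0; exact ha (by rw [h1, h0, mul_zero])
  have h4 : (1 - X ^ (n + 1)) * (a' * sg q b' - sg q a' * b') = a' * sg q a' * s := by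
    apply mul_left_cancel₀ (mul_ne_zero hg (sg_ne_zero hq hg))
    rw [h1, h2, map_mul, map_mul] at h
    linear_combination h
  obtain ⟨h5, c, h6⟩ := pole_coprime hq hq1 ha' ((gcd_isUnit_iff _ _).1 h3) hs h4
  exact ⟨h5, c, by rw [h2, h6, h1]; ring⟩

end Vale.Agent.P314
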