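import Vale.Agent.P314.Psi
import Vale.Agent.P314.Pole

/-! Linear independence of the iterated sums over the polynomial ring. -/

namespace Vale.Agent.P314

open Finset

variable {K : Type} [Field K] {n : ℕ}

theorem shift_single (S : Finset (List (Fin n))) (hS : ∀ i v, i :: v ∈ S → v ∈ S)
    {w : List (Fin n)} (hw : w ∈ S) (i : Fin n) :
    (fun v => (Pi.single w 1 : List (Fin n) → K) (i :: v)) =
      ∑ v ∈ S, (if w = i :: v then (1 : K) else 0) • (Pi.single v 1 : List (Fin n) → K) := by
  funext x
  simp only [Finset.sum_apply, Pi.smul_apply, Pi.single_apply, smul_eq_mul, mul_ite, mul_one,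
    mul_zero, sum_ite_eq]
  by_cases h : i :: x = w
  · subst h
    simp [hS i x hw]
  · simp [h, Ne.symm h]

theorem shift_sum (u : ℕ → K) (S : Finset (List (Fin n))) (hS : ∀ i v, i :: v ∈ S → v ∈ S)
    (A : List (Fin n) → PowerSeries K) (hA : ∀ w, w ∉ S → A w = 0) (i : Fin n) :
    ∑ w ∈ S, A w * Phi u (fun v => (Pi.single w 1 : List (Fin n) → K) (i :: v)) =
      ∑ v ∈ S, A (i :: v) * Phi u (Pi.single v 1) := by
  have : ∀ w ∈ S, A w * Phi u (fun v => (Pi.single w 1 : List (Fin n) → K) (i :: v)) =
      ∑ v ∈ S, if w = i :: v then A w * Phi u (Pi.single v 1) else 0 := by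
    intro w hw
    rw [shift_single S hS hw, map_sum, mul_sum]
    refine sum_congr rfl fun v _ => ?_
    split_ifs <;> simp
  rw [sum_congr rfl this, sum_comm]
  refine sum_congr rfl fun v _ => ?_
  rw [sum_ite_eq']
  split_ifs with h
  · rfl
  · rw [hA _ h, zero_mul]

open Polynomial in
theorem indep [IsAlgClosed K] {q : K} (hq : q ≠ 0) (hq1 : ∀ j, j ≠ 0 → q ^ j ≠ 1) {u : ℕ → K}
    (hu : ∀ j, j ≠ 0 → u j * (1 - q ^ j) = 1) (m : ℕ) :
    ∀ S : Finset (List (Fin n)), S.card = m → (∀ i v, i :: v ∈ S → v ∈ S) →
      ∀ a : List (Fin n) → K[X], (∀ w, w ∉ S → a w = 0) →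
        ∑ w ∈ S, (a w : PowerSeries K) * Phi u (Pi.single w 1) = 0 → ∀ w, a w = 0 := by
  induction m with
  | zero =>
    intro S hc _ a ha _ w
    exact ha w (by simp [card_eq_zero.1 hc])
  | succ m ih =>
    intro S hc hS a ha hrel
    obtain ⟨w0, hw0, hmax⟩ := S.exists_max_image List.length (card_pos.1 (by omega))
    have hc' : (S.erase w0).card = m := by rw [card_erase_of_mem hw0]; omega
    have hS' : ∀ i v, i :: v ∈ S.erase w0 → v ∈ S.erase w0 := fun i v h => by
      have h1 := mem_of_mem_erase h
      refine mem_erase.2 ⟨?_, hS i v h1⟩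
      rintro rfl
      have := hmax _ h1
      simp at this
    by_cases h0 : a w0 = 0
    · refine ih _ hc' hS' a (fun w hw => ?_) ?_
      · by_cases h : w = w0
        · rw [h, h0]
        · exact ha w fun h' => hw (mem_erase.2 ⟨h, h'⟩)
      · rw [← add_sum_erase S _ hw0, h0] at hrel
        simpa using hrel
    exfalso
    have hlong : ∀ w : List (Fin n), w0.length < w.length → a w = 0 := fun w hw =>
      ha w fun h => by have := hmax w h; omega
    let b : List (Fin n) → K[X] := fun v =>
      (1 - X ^ (n + 1)) * (a w0 * sg q (a v) - sg q (a w0) * a v) -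
        a w0 * ∑ i : Fin n, X ^ (i.val + 1) * sg q (a (i :: v))
    have hb0 : b w0 = 0 := by
      simp only [b]
      rw [sum_eq_zero fun i _ => by rw [hlong (i :: w0) (by simp), map_zero, mul_zero]]
      ring
    have hbS : ∀ w, w ∉ S.erase w0 → b w = 0 := fun w hw => by
      by_cases h : w = w0
      · rw [h, hb0]
      · have h1 : w ∉ S := fun h' => hw (mem_erase.2 ⟨h, h'⟩)
        simp only [b]
        rw [sum_eq_zero fun i _ => by
          rw [ha (i :: w) (fun h2 => h1 (hS _ _ h2)), map_zero, mul_zero], ha w h1]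
        simp
    have hrel2 : ∑ w ∈ S, ((sg q (a w) : K[X]) : PowerSeries K) *
        ((1 - PowerSeries.X ^ (n + 1)) * Phi u (Pi.single w 1)) =
        ∑ v ∈ S, (∑ i : Fin n, PowerSeries.X ^ (i.val + 1) *
          ((sg q (a (i :: v)) : K[X]) : PowerSeries K)) * Phi u (Pi.single v 1) := by
      have e1 := congrArg (fun x => (1 - PowerSeries.X ^ (n + 1)) * PowerSeries.rescale q x) hrel
      simp only [map_sum, map_mul, map_zero, mul_zero, mul_sum, ← coe_sg,
        mul_left_comm (1 - PowerSeries.X ^ (n + 1) : PowerSeries K),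
        omega_mul_rescale_Phi hu, mul_sub, sum_sub_distrib] at e1
      rw [sub_eq_zero] at e1
      rw [e1, sum_comm]
      simp only [sum_mul]
      rw [sum_comm (s := S)]
      refine sum_congr rfl fun i _ => ?_
      have := shift_sum u S hS (fun w => ((sg q (a w) : K[X]) : PowerSeries K))
        (fun w hw => by simp [ha w hw]) i
      simp only [mul_left_comm _ (PowerSeries.X ^ (i.val + 1) : PowerSeries K), mul_assoc,
        ← mul_sum, this]
    have hrel3 : ∑ w ∈ S.erase w0, (b w : PowerSeries K) * Phi u (Pi.single w 1) = 0 := by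
      have e1 : ∑ w ∈ S, (b w : PowerSeries K) * Phi u (Pi.single w 1) =
          (a w0 : PowerSeries K) * (∑ w ∈ S, ((sg q (a w) : K[X]) : PowerSeries K) *
            ((1 - PowerSeries.X ^ (n + 1)) * Phi u (Pi.single w 1)) -
            ∑ v ∈ S, (∑ i : Fin n, PowerSeries.X ^ (i.val + 1) *
              ((sg q (a (i :: v)) : K[X]) : PowerSeries K)) * Phi u (Pi.single v 1)) -
          (1 - PowerSeries.X ^ (n + 1)) * ((sg q (a w0) : K[X]) : PowerSeries K) *
            ∑ w ∈ S, (a w : PowerSeries K) * Phi u (Pi.single w 1) := by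
        rw [← sum_sub_distrib, mul_sum, mul_sum, ← sum_sub_distrib]
        refine sum_congr rfl fun w _ => ?_
        have : ((∑ i : Fin n, X ^ (i.val + 1) * sg q (a (i :: w)) : K[X]) : PowerSeries K) =
            ∑ i : Fin n, PowerSeries.X ^ (i.val + 1) *
              ((sg q (a (i :: w)) : K[X]) : PowerSeries K) := by
          rw [← Polynomial.coeToPowerSeries.ringHom_apply, map_sum]
          simp [Polynomial.coeToPowerSeries.ringHom_apply]
        simp only [b, Polynomial.coe_sub, Polynomial.coe_mul, Polynomial.coe_one,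
          Polynomial.coe_pow, Polynomial.coe_X, this]
        ring
      rw [hrel2, hrel, sub_self, mul_zero, mul_zero, sub_zero, ← add_sum_erase S _ hw0, hb0] at e1
      simpa using e1
    have hb := ih _ hc' hS' b hbS hrel3
    cases w0 with
    | nil =>
      have hS1 : S = {[]} := by
        ext w
        simp only [mem_singleton]
        refine ⟨fun h => ?_, fun h => h ▸ hw0⟩
        have := hmax w h
        simpa using this
      rw [hS1, sum_singleton] at hrel
      rcases mul_eq_zero.1 hrel with h | h
      · exact h0 (by exact_mod_cast h)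
      · have := congrArg PowerSeries.constantCoeff h
        rw [constantCoeff_Phi] at this
        simp at this
    | cons i0 v0 =>
      have hc : ∀ i : Fin n, ∃ c, a (i :: v0) = C c * a (i0 :: v0) := fun i => by
        have h1 := hb (i :: v0)
        simp only [b] at h1
        rw [sum_eq_zero fun j _ => by
          rw [hlong (j :: i :: v0) (by simp), map_zero, mul_zero]] at h1
        exact (pole (s := 0) (n := n) hq hq1 h0 (by simp) (by linear_combination h1)).2
      choose c hc using hc
      have hc0 : c i0 = 1 := by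
        have h1 := hc i0
        have h2 : (C (c i0) - 1) * a (i0 :: v0) = 0 := by linear_combination -h1
        rw [mul_eq_zero, or_iff_left h0, sub_eq_zero, ← C_1, C_inj] at h2
        exact h2
      have h1 := hb v0
      have hsum : ∑ i : Fin n, X ^ (i.val + 1) * sg q (a (i :: v0)) =
          sg q (a (i0 :: v0)) * ∑ i : Fin n, C (c i) * X ^ (i.val + 1) := by
        rw [mul_sum]
        refine sum_congr rfl fun i _ => ?_
        rw [hc i, map_mul, sg_C]
        ring
      simp only [b] at h1
      rw [hsum] at h1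
      have hs : (∑ i : Fin n, C (c i) * X ^ (i.val + 1) : K[X]).natDegree ≤ n :=
        natDegree_sum_le_of_forall_le _ _ fun i _ =>
          (natDegree_C_mul_X_pow_le _ _).trans (by have := i.2; omega)
      have h2 := (pole (b := a v0) hq hq1 h0 hs (by linear_combination h1)).1
      have h3 := congrArg (fun p => p.coeff (i0.val + 1)) h2
      simp only [finset_sum_coeff, coeff_C_mul, coeff_X_pow, add_left_inj, Fin.val_inj, mul_ite,
        mul_one, mul_zero, sum_ite_eq, mem_univ, if_true, coeff_zero] at h3
      rw [hc0] at h3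
      exact one_ne_zero h3

theorem Phi_ne_zero [IsAlgClosed K] {q : K} (hq : q ≠ 0) (hq1 : ∀ j, j ≠ 0 → q ^ j ≠ 1)
    {u : ℕ → K} (hu : ∀ j, j ≠ 0 → u j * (1 - q ^ j) = 1) {c : List (Fin n) → K}
    (hfin : (Function.support c).Finite) (h : Phi u c = 0) : c = 0 := by
  classical
  let S : Finset (List (Fin n)) := hfin.toFinset.biUnion fun w => w.tails.toFinset
  have hS : ∀ i v, i :: v ∈ S → v ∈ S := fun i v hv => by
    simp only [S, mem_biUnion, List.mem_toFinset, List.mem_tails] at hv ⊢
    obtain ⟨w, h1, h2⟩ := hv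
    exact ⟨w, h1, (List.suffix_cons i v).trans h2⟩
  have hc : ∀ w, w ∉ S → c w = 0 := fun w hw => by
    by_contra h0
    apply hw
    simp only [S, mem_biUnion, List.mem_toFinset, List.mem_tails]
    exact ⟨w, by simpa using h0, List.suffix_rfl⟩
  have e : c = ∑ w ∈ S, c w • (Pi.single w 1 : List (Fin n) → K) := by
    funext x
    simp only [Finset.sum_apply, Pi.smul_apply, Pi.single_apply, smul_eq_mul, mul_ite, mul_one,
      mul_zero, sum_ite_eq]
    split_ifs with hx
    · rfl
    · exact hc x hx
  have := indep hq hq1 hu _ S rfl hS (fun w => Polynomial.C (c w)) (fun w hw => by simp [hc w hw])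
    (by
      rw [e, map_sum] at h
      simpa [PowerSeries.smul_eq_C_mul] using h)
  funext w
  simpa using this w

end Vale.Agent.P314
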