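import Mathlib

/-! The iterated `q`-sums attached to words. -/

namespace Vale.Agent.P314

open PowerSeries Finset

variable {R : Type} [CommRing R] {n : ℕ}

/-- Coefficient of `z ^ j` in the iterated sum attached to the series `c`. -/
def Psi (u : ℕ → R) (j : ℕ) (c : List (Fin n) → R) : R :=
  if j = 0 then c [] else
    u j * ∑ j' : Fin j, ∑ i : Fin n,
      if (j - j') % (n + 1) = i + 1 then Psi u j' (fun w => c (i :: w)) else 0
termination_by j
decreasing_by exact j'.2

theorem Psi_zero (u : ℕ → R) (c : List (Fin n) → R) : Psi u 0 c = c [] := by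
  rw [Psi]; simp

theorem Psi_pos (u : ℕ → R) {j : ℕ} (hj : j ≠ 0) (c : List (Fin n) → R) :
    Psi u j c = u j * ∑ j' ∈ range j, ∑ i : Fin n,
      if (j - j') % (n + 1) = i + 1 then Psi u j' (fun w => c (i :: w)) else 0 := by
  rw [Psi, if_neg hj, Finset.sum_range]

theorem Psi_map {S : Type} [CommRing S] (φ : R →+* S) (u : ℕ → R) (j : ℕ) :
    ∀ c : List (Fin n) → R, φ (Psi u j c) = Psi (fun j => φ (u j)) j fun w => φ (c w) := by
  induction j using Nat.strong_induction_on with
  | _ j ih =>
    intro c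
    by_cases hj : j = 0
    · subst hj; simp [Psi_zero]
    · rw [Psi_pos _ hj, Psi_pos _ hj, map_mul, map_sum]
      congr 1
      refine sum_congr rfl fun j' hj' => ?_
      rw [map_sum]
      refine sum_congr rfl fun i _ => ?_
      split_ifs
      · exact ih j' (mem_range.1 hj') _
      · exact map_zero _

theorem Psi_add (u : ℕ → R) (j : ℕ) :
    ∀ c d : List (Fin n) → R, Psi u j (c + d) = Psi u j c + Psi u j d := by
  induction j using Nat.strong_induction_on with
  | _ j ih =>
    intro c d
    by_cases hj : j = 0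
    · subst hj; simp [Psi_zero]
    · rw [Psi_pos _ hj, Psi_pos _ hj, Psi_pos _ hj, ← mul_add, ← sum_add_distrib]
      congr 1
      refine sum_congr rfl fun j' hj' => ?_
      rw [← sum_add_distrib]
      refine sum_congr rfl fun i _ => ?_
      split_ifs
      · exact ih j' (mem_range.1 hj') (fun w => c (i :: w)) fun w => d (i :: w)
      · simp

theorem Psi_smul (u : ℕ → R) (a : R) (j : ℕ) :
    ∀ c : List (Fin n) → R, Psi u j (a • c) = a * Psi u j c := by
  induction j using Nat.strong_induction_on with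
  | _ j ih =>
    intro c
    by_cases hj : j = 0
    · subst hj; simp [Psi_zero]
    · rw [Psi_pos _ hj, Psi_pos _ hj, mul_left_comm a, mul_sum _ _ a]
      congr 1
      refine sum_congr rfl fun j' hj' => ?_
      rw [mul_sum]
      refine sum_congr rfl fun i _ => ?_
      split_ifs
      · exact ih j' (mem_range.1 hj') (fun w => c (i :: w))
      · simp

/-- The generating power series, as a linear map. -/
noncomputable def Phi (u : ℕ → R) : (List (Fin n) → R) →ₗ[R] R⟦X⟧ where
  toFun c := PowerSeries.mk fun j => Psi u j c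
  map_add' c d := by ext j; simp [Psi_add]
  map_smul' a c := by ext j; simp [Psi_smul]

@[simp] theorem coeff_Phi (u : ℕ → R) (c : List (Fin n) → R) (j : ℕ) :
    coeff j (Phi u c) = Psi u j c := by simp [Phi]

theorem constantCoeff_Phi (u : ℕ → R) (c : List (Fin n) → R) :
    constantCoeff (Phi u c) = c [] := by
  rw [← coeff_zero_eq_constantCoeff_apply, coeff_Phi, Psi_zero]

/-- The rational series `z ^ (i + 1) / (1 - z ^ (n + 1))`. -/
noncomputable def rr (R : Type) [CommRing R] (n : ℕ) (i : Fin n) : R⟦X⟧ :=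
  PowerSeries.mk fun m => if m % (n + 1) = i + 1 then 1 else 0

theorem omega_mul_rr (i : Fin n) : (1 - X ^ (n + 1)) * rr R n i = X ^ (i.val + 1) := by
  ext m
  rw [sub_mul, one_mul, map_sub, coeff_X_pow_mul', coeff_X_pow]
  have hi := i.2
  simp only [rr, coeff_mk]
  by_cases h : n + 1 ≤ m
  · rw [if_pos h, ← Nat.mod_eq_sub_mod h, sub_self, if_neg (by omega)]
  · rw [if_neg h, Nat.mod_eq_of_lt (by omega), sub_zero]

theorem Phi_sub_rescale {u : ℕ → R} {q : R} (hu : ∀ j, j ≠ 0 → u j * (1 - q ^ j) = 1)
    (c : List (Fin n) → R) :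
    Phi u c - rescale q (Phi u c) = ∑ i : Fin n, Phi u (fun w => c (i :: w)) * rr R n i := by
  ext j
  rw [map_sub, coeff_rescale, map_sum]
  simp only [coeff_mul, Finset.Nat.sum_antidiagonal_eq_sum_range_succ_mk, coeff_Phi, rr, coeff_mk,
    sum_range_succ, Nat.sub_self, Nat.zero_mod, mul_ite, mul_one, mul_zero]
  have e : ∀ i : Fin n, (if 0 = i.val + 1 then Psi u j fun w => c (i :: w) else 0) = 0 :=
    fun i => if_neg (by omega)
  simp only [e, add_zero]
  by_cases hj : j = 0
  · subst hj; simp
  · rw [sum_comm, Psi_pos _ hj]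
    linear_combination (∑ j' ∈ range j, ∑ i : Fin n,
      if (j - j') % (n + 1) = i + 1 then Psi u j' (fun w => c (i :: w)) else 0) * hu j hj

theorem omega_mul_rescale_Phi {u : ℕ → R} {q : R} (hu : ∀ j, j ≠ 0 → u j * (1 - q ^ j) = 1)
    (c : List (Fin n) → R) :
    (1 - X ^ (n + 1)) * rescale q (Phi u c) = (1 - X ^ (n + 1)) * Phi u c -
      ∑ i : Fin n, X ^ (i.val + 1) * Phi u (fun w => c (i :: w)) := by
  have h := Phi_sub_rescale hu c
  have e : (1 - X ^ (n + 1)) * ∑ i : Fin n, Phi u (fun w => c (i :: w)) * rr R n i =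
      ∑ i : Fin n, X ^ (i.val + 1) * Phi u (fun w => c (i :: w)) := by
    rw [mul_sum]
    refine sum_congr rfl fun i _ => ?_
    rw [← omega_mul_rr]; ring
  rw [← e, ← h]; ring

end Vale.Agent.P314
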