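import Vale.Agent.P314.Hit
import Vale.Agent.PT.Typed

namespace Vale.Agent.P314

open Vale.Agent.PT

def outStr (e1 e0 : List (Option Bool)) (n N : ℕ) : List (Option Bool) :=
  List.replicate (N * N ^ 2) (some true) ++ none ::
    (List.range n).flatMap fun i => (List.range (N * N ^ 2)).flatMap fun a =>
      (List.range (N * N ^ 2)).flatMap fun b => cond (ent n (N ^ 2) i a b) e1 e0

theorem pt_outStr (e1 e0 : List (Option Bool)) :
    PT (Option Bool) fun x : ℕ × ℕ => outStr e1 e0 x.1 x.2 := by
  unfold outStr
  refine PT.append (PT.replicate (by fun_prop) _) (PT.cons _ ?_)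
  refine PT.flatMapRange (by fun_prop) ?_
  refine PT.flatMapRange (by fun_prop) ?_
  refine PT.flatMapRange (by fun_prop) ?_
  unfold ent
  fun_prop

theorem flatMap_finRange {β : Type} (d : ℕ) (g : ℕ → List β) :
    (List.finRange d).flatMap (fun i => g i.val) = (List.range d).flatMap g := by
  rw [← List.map_coe_finRange_eq_range, List.flatMap_map]

theorem enc_hitTuple {F : Type} [Field F] (enc : F → List Bool) (n s : ℕ) :
    encTuple enc (hitTuple F n s) = outStr ((enc 1).map some ++ [none]) ((enc 0).map some ++ [none])
      n ((s + 1) * ((s + 1) * (n + 1)) + 1) := by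
  simp only [encTuple, outStr, hitTuple, Tm, Matrix.of_apply, ← flatMap_finRange]
  congr 2
  refine List.flatMap_congr fun i _ => List.flatMap_congr fun a _ => List.flatMap_congr fun b _ => ?_
  generalize ent _ _ _ _ _ = t
  cases t <;> rfl

theorem polytime {F : Type} [Field F] (enc : F → List Bool) :
    ∃ h : Turing.TM2ComputableInPolyTime encInput (encOutput enc)
      (fun x : ℕ × ℕ => (⟨x.1, [hitTuple F x.1 x.2]⟩ : Σ n : ℕ, List (Tuple F n))),
      ∀ k, Finite (h.tm.Γ k) := by
  have h1 : PT (Option Bool) fun l : List (Option Bool) => l.count (some true) :=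
    PT.count PT.id' _
  have h2 : PT (Option Bool) fun l : List (Option Bool) => l.count (some false) :=
    PT.count PT.id' _
  have h3 := (pt_outStr ((enc 1).map some ++ [none]) ((enc 0).map some ++ [none])).comp
    (g := fun l : List (Option Bool) => (l.count (some true),
      (l.count (some false) + 1) * ((l.count (some false) + 1) * (l.count (some true) + 1)) + 1))
    (by fun_prop)
  refine PT.toTM2 _ _ _ h3 fun x => ?_
  simp [encInput, encOutput, enc_hitTuple, List.count_replicate]

end Vale.Agent.P314
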